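import Vale.Agent.P281.H386.K.Lin
import Vale.Agent.P281.H64.TK.SpecG

/-!
# P281, project T-K, block KW (helper386), part 3: `WStmt`
-/

open Set Filter Metric Vale.Agent.P272.K Vale.Agent.P272.K.QN Vale.Agent.P281.H64.TK
open scoped Topology ContDiff Manifold ComplexConjugate ComplexOrder Matrix

set_option linter.unusedSectionVars false

noncomputable section

namespace Vale.Agent.P281.H386.K

variable {n p d : ℕ} {Z Y : Type} [TopologicalSpace Z] [ChartedSpace (Cm n) Z]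
  [IsManifold 𝓘(ℂ, Cm n) ω Z] [TopologicalSpace Y] [ChartedSpace (Cm p) Y]
  [IsManifold 𝓘(ℂ, Cm p) ω Y] {f : Z → Y}
  {w : Chart n Z → Cm n → Matrix (Fin n) (Fin n) ℂ}
  {E Γ : Type} [TopologicalSpace E] [Group Γ] [MulAction Γ E] {𝓕 : Fam p d E Γ}
  {q : Cm p → E → Z} {χ : OpenPartialHomeomorph Y (Cm p)}

/-- the chart number `i` of the family -/
def Qc (𝓕 : Fam p d E Γ) (q : Cm p → E → Z) (i : Fin 𝓕.N) (r : Cm p × Cm d) : Z :=
  q r.1 (𝓕.σ i r.1 r.2)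

theorem Qc_hol (hM : Model (n := n) f 𝓕 χ q) (i : Fin 𝓕.N) {t : Cm p} (ht : t ∈ 𝓕.T) {z : Cm d}
    (hz : z ∈ ball (0 : Cm d) 3) :
    ContMDiffAt 𝓘(ℂ, Cm p × Cm d) 𝓘(ℂ, Cm n) ω (Qc 𝓕 q i) (t, z) := hM.hol i t ht z hz

theorem nhds_T (𝓕 : Fam p d E Γ) {t : Cm p} (ht : t ∈ 𝓕.T) {z : Cm d}
    (hz : z ∈ ball (0 : Cm d) 3) :
    ∀ᶠ r : Cm p × Cm d in 𝓝 (t, z), r.1 ∈ 𝓕.T ∧ r.2 ∈ ball (0 : Cm d) 3 :=
  (𝓕.isOpen.prod isOpen_ball).mem_nhds ⟨ht, hz⟩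

/-- the charts of the family are immersions -/
theorem Qc_inj (hf : ContMDiff 𝓘(ℂ, Cm n) 𝓘(ℂ, Cm p) ω f) (hM : Model (n := n) f 𝓕 χ q) (i : Fin 𝓕.N)
    {t : Cm p} (ht : t ∈ 𝓕.T) {z : Cm d} (hz : z ∈ ball (0 : Cm d) 3) {e : Chart n Z}
    (he : At e (Qc 𝓕 q i (t, z))) :
    Function.Injective (fderiv ℂ (fun r => e (Qc 𝓕 q i r)) (t, z)) := by
  obtain ⟨ζ, h1, h2, h3⟩ := hM.coord i t ht z hz
  have hQc : ContinuousAt (Qc 𝓕 q i) (t, z) := (Qc_hol hM i ht hz).continuousAt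
  have hfx : f (Qc 𝓕 q i (t, z)) = χ.symm t := hM.fib t ht _
  have hχ : At χ (f (Qc 𝓕 q i (t, z))) :=
    ⟨hM.atlas, by rw [hfx]; exact χ.map_target (hM.sub ht)⟩
  -- the inverse map
  have hB1 : ContMDiffAt 𝓘(ℂ, Cm n) 𝓘(ℂ, Cm p) ω (fun x => χ (f x)) (Qc 𝓕 q i (t, z)) :=
    ContMDiffAt.comp _ (g := χ) (chart_contMDiffAt hχ) (hf _)
  have hes : ContMDiffAt 𝓘(ℂ, Cm n) 𝓘(ℂ, Cm n) ω e.symm (e (Qc 𝓕 q i (t, z))) :=
    chart_symm_contMDiffAt he.1 he.mem_target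
  have hB1' : DifferentiableAt ℂ (fun u => χ (f (e.symm u))) (e (Qc 𝓕 q i (t, z))) := by
    have h4 : ContMDiffAt 𝓘(ℂ, Cm n) 𝓘(ℂ, Cm p) ω (fun u => χ (f (e.symm u)))
        (e (Qc 𝓕 q i (t, z))) := by
      refine ContMDiffAt.comp (e (Qc 𝓕 q i (t, z))) (g := fun x => χ (f x)) ?_ hes
      rw [he.left_inv]
      exact hB1
    exact h4.contDiffAt.differentiableAt (by simp)
  have hB2' : DifferentiableAt ℂ (fun u => ζ (e.symm u)) (e (Qc 𝓕 q i (t, z))) := by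
    have h4 : ContMDiffAt 𝓘(ℂ, Cm n) 𝓘(ℂ, Cm d) ω (fun u => ζ (e.symm u))
        (e (Qc 𝓕 q i (t, z))) := by
      refine ContMDiffAt.comp (e (Qc 𝓕 q i (t, z))) (g := ζ) ?_ hes
      rw [he.left_inv]
      exact h1
    exact h4.contDiffAt.differentiableAt (by simp)
  have hB := hB1'.prodMk hB2'
  have hA : DifferentiableAt ℂ (fun r => e (Qc 𝓕 q i r)) (t, z) := by
    have h4 : ContMDiffAt 𝓘(ℂ, Cm p × Cm d) 𝓘(ℂ, Cm n) ω (fun r => e (Qc 𝓕 q i r)) (t, z) :=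
      ContMDiffAt.comp (t, z) (g := e) (chart_contMDiffAt he) (Qc_hol hM i ht hz)
    exact h4.contDiffAt.differentiableAt (by simp)
  -- the identity
  have hid : (fun r : Cm p × Cm d => ((χ (f (e.symm (e (Qc 𝓕 q i r)))) : Cm p),
      (ζ (e.symm (e (Qc 𝓕 q i r))) : Cm d))) =ᶠ[𝓝 (t, z)] fun r => r := by
    have a1 : ∀ᶠ r in 𝓝 (t, z), Qc 𝓕 q i r ∈ e.source :=
      hQc.eventually (e.open_source.mem_nhds he.2)
    have a2 : ∀ᶠ r in 𝓝 (t, z), q (χ (f (Qc 𝓕 q i r))) (𝓕.σ i (χ (f (Qc 𝓕 q i r)))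
        (ζ (Qc 𝓕 q i r))) = Qc 𝓕 q i r := hQc.eventually h3
    have a3 : ∀ᶠ r in 𝓝 (t, z), ζ (Qc 𝓕 q i r) ∈ ball (0 : Cm d) 3 := by
      have h5 : ContinuousAt (fun r => ζ (Qc 𝓕 q i r)) (t, z) :=
        ContinuousAt.comp (g := ζ) h1.continuousAt hQc
      refine h5.eventually (isOpen_ball.mem_nhds ?_)
      show ζ (q t (𝓕.σ i t z)) ∈ _
      rw [h2]; exact hz
    filter_upwards [a1, a2, a3, nhds_T 𝓕 ht hz] with r b1 b2 b3 b4
    rw [e.left_inv b1]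
    have c1 : χ (f (Qc 𝓕 q i r)) = r.1 := by
      have c2 : f (Qc 𝓕 q i r) = χ.symm r.1 := hM.fib r.1 b4.1 _
      rw [c2, χ.right_inv (hM.sub b4.1)]
    rw [c1] at b2 ⊢
    obtain ⟨γ, hγ⟩ := (hM.eq r.1 b4.1 _ _).1 b2
    have c3 := (𝓕.inj i r.1 b4.1 _ b3 _ b4.2 γ hγ).2
    exact Prod.ext rfl c3
  have hcomp := HasFDerivAt.comp (t, z) (g := fun u => ((χ (f (e.symm u)) : Cm p),
      (ζ (e.symm u) : Cm d))) (f := fun r => e (Qc 𝓕 q i r)) hB.hasFDerivAt hA.hasFDerivAt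
  have hu := hcomp.unique ((hasFDerivAt_id (t, z)).congr_of_eventuallyEq hid)
  intro v v' hv
  have e1 := DFunLike.congr_fun hu v
  have e2 := DFunLike.congr_fun hu v'
  simp only [ContinuousLinearMap.comp_apply, ContinuousLinearMap.id_apply] at e1 e2
  rw [← e1, ← e2, hv]

/-- the chart number `i` on `ℂ^(p+d)` -/
def Gc (𝓕 : Fam p d E Γ) (q : Cm p → E → Z) (i : Fin 𝓕.N) (y : Cm (p + d)) : Z :=
  Qc 𝓕 q i (La p d y)

theorem Gc_hol (hM : Model (n := n) f 𝓕 χ q) (i : Fin 𝓕.N) {y : Cm (p + d)} (hy : (La p d y).1 ∈ 𝓕.T)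
    (hz : (La p d y).2 ∈ ball (0 : Cm d) 3) :
    ContMDiffAt 𝓘(ℂ, Cm (p + d)) 𝓘(ℂ, Cm n) ω (Gc 𝓕 q i) y := by
  have h1 : ContMDiffAt 𝓘(ℂ, Cm (p + d)) 𝓘(ℂ, Cm p × Cm d) ω (fun y => La p d y) y :=
    (La p d).contDiff.contMDiff.contMDiffAt
  exact ContMDiffAt.comp y (g := Qc 𝓕 q i) (Qc_hol hM i hy hz) h1

theorem nhds_La (𝓕 : Fam p d E Γ) {t : Cm p} (ht : t ∈ 𝓕.T) {z : Cm d}
    (hz : z ∈ ball (0 : Cm d) 3) :
    ∀ᶠ y in 𝓝 ((La p d).symm (t, z)), (La p d y).1 ∈ 𝓕.T ∧ (La p d y).2 ∈ ball (0 : Cm d) 3 := by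
  have h1 : Tendsto (La p d) (𝓝 ((La p d).symm (t, z))) (𝓝 (t, z)) := by
    have h2 := (La p d).continuous.tendsto ((La p d).symm (t, z))
    rwa [(La p d).apply_symm_apply] at h2
  exact h1.eventually (nhds_T 𝓕 ht hz)

theorem Gc_ev (hM : Model (n := n) f 𝓕 χ q) (i : Fin 𝓕.N) {t : Cm p} (ht : t ∈ 𝓕.T) {z : Cm d}
    (hz : z ∈ ball (0 : Cm d) 3) :
    ∀ᶠ y in 𝓝 ((La p d).symm (t, z)),
      ContMDiffAt 𝓘(ℂ, Cm (p + d)) 𝓘(ℂ, Cm n) ω (Gc 𝓕 q i) y := by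
  filter_upwards [nhds_La 𝓕 ht hz] with y hy
  exact Gc_hol hM i hy.1 hy.2

/-- **the metric of `Z` in the coordinates `(t, z)`** -/
def WW (w : Chart n Z → Cm n → Matrix (Fin n) (Fin n) ℂ) (𝓕 : Fam p d E Γ) (q : Cm p → E → Z)
    (i : Fin 𝓕.N) (r : Cm p × Cm d) : Matrix (Fin p ⊕ Fin d) (Fin p ⊕ Fin d) ℂ :=
  (FW w (Gc 𝓕 q i) ((La p d).symm r)).submatrix finSumFinEquiv finSumFinEquiv

theorem Gc_symm (i : Fin 𝓕.N) (r : Cm p × Cm d) : Gc 𝓕 q i ((La p d).symm r) = Qc 𝓕 q i r := by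
  unfold Gc
  rw [(La p d).apply_symm_apply]

theorem jm_Gc (hM : Model (n := n) f 𝓕 χ q) (i : Fin 𝓕.N) {t : Cm p} (ht : t ∈ 𝓕.T) {z : Cm d}
    (hz : z ∈ ball (0 : Cm d) 3) {e : Chart n Z} (he : At e (Qc 𝓕 q i (t, z))) :
    (jm (fun y => e (Gc 𝓕 q i y)) ((La p d).symm (t, z))).submatrix id finSumFinEquiv =
      𝓕.jacE q e i (t, z) := by
  have he' : At e (Gc 𝓕 q i ((La p d).symm (t, z))) := by rw [Gc_symm]; exact he
  have h1 := (loc_omega (Gc_ev hM i ht hz).self_of_nhds he').differentiableAt (by simp)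
  ext a b
  rw [Matrix.submatrix_apply, jm_apply h1, id]
  have h2 := (La p d).comp_right_fderiv (f := fun r => e (Qc 𝓕 q i r))
    (x := (La p d).symm (t, z))
  have h3 : fderiv ℂ (fun y => e (Gc 𝓕 q i y)) ((La p d).symm (t, z)) =
      (fderiv ℂ (fun r => e (Qc 𝓕 q i r)) (La p d ((La p d).symm (t, z)))).comp
        (La p d : Cm (p + d) →L[ℂ] Cm p × Cm d) := h2
  rw [h3, (La p d).apply_symm_apply]
  show fderiv ℂ (fun r => e (Qc 𝓕 q i r)) (t, z) (La p d (Pi.single (finSumFinEquiv b) 1)) a = _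
  rw [La_single, one_smul]
  rfl

theorem isPull (hw : IsHermitian w) (hM : Model (n := n) f 𝓕 χ q) : IsPull w 𝓕 q (WW w 𝓕 q) := by
  intro i t ht z hz e he
  have he' : At e (Gc 𝓕 q i ((La p d).symm (t, z))) := by rw [Gc_symm]; exact he
  unfold WW
  rw [FW_eq hw (Gc_ev hM i ht hz).self_of_nhds he']
  unfold pl
  rw [pl_submatrix, jm_Gc hM i ht hz he]
  have h1 : (fun y => e (Gc 𝓕 q i y)) ((La p d).symm (t, z)) = e (q t (𝓕.σ i t z)) := by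
    show e (Gc 𝓕 q i ((La p d).symm (t, z))) = _
    rw [Gc_symm]
    rfl
  rw [h1]

theorem WW_posDef (hw : IsHermitian w) (hf : ContMDiff 𝓘(ℂ, Cm n) 𝓘(ℂ, Cm p) ω f)
    (hM : Model (n := n) f 𝓕 χ q) (i : Fin 𝓕.N) {t : Cm p} (ht : t ∈ 𝓕.T) {z : Cm d}
    (hz : z ∈ ball (0 : Cm d) 3) : (WW w 𝓕 q i (t, z)).PosDef := by
  have he : At (chartAt (Cm n) (Qc 𝓕 q i (t, z))) (Qc 𝓕 q i (t, z)) := at_chartAt _
  set e := chartAt (Cm n) (Qc 𝓕 q i (t, z)) with hee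
  have he' : At e (Gc 𝓕 q i ((La p d).symm (t, z))) := by rw [Gc_symm]; exact he
  refine Matrix.PosDef.submatrix ?_ finSumFinEquiv.injective
  refine FW_posDef hw (Gc_ev hM i ht hz).self_of_nhds he' ?_
  have h2 := (La p d).comp_right_fderiv (f := fun r => e (Qc 𝓕 q i r))
    (x := (La p d).symm (t, z))
  have h3 : fderiv ℂ (fun y => e (Gc 𝓕 q i y)) ((La p d).symm (t, z)) =
      (fderiv ℂ (fun r => e (Qc 𝓕 q i r)) (La p d ((La p d).symm (t, z)))).comp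
        (La p d : Cm (p + d) →L[ℂ] Cm p × Cm d) := h2
  rw [h3, (La p d).apply_symm_apply]
  exact (Qc_inj hf hM i ht hz he).comp (La p d).injective

theorem WW_smooth (hw : IsHermitian w) (hM : Model (n := n) f 𝓕 χ q) (i : Fin 𝓕.N) {t : Cm p}
    (ht : t ∈ 𝓕.T) {z : Cm d} (hz : z ∈ ball (0 : Cm d) 3) (a b : Fin p ⊕ Fin d) :
    ContDiffAt ℝ ∞ (fun r => WW w 𝓕 q i r a b) (t, z) := by
  have h1 := FW_smooth hw (Gc_ev hM i ht hz) (finSumFinEquiv a) (finSumFinEquiv b)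
  have h2 : ContDiffAt ℝ ∞ (fun r => (La p d).symm r) (t, z) :=
    ((LaR p d).symm : Cm p × Cm d →L[ℝ] Cm (p + d)).contDiff.contDiffAt
  exact h1.comp (t, z) h2

theorem WW_closed (hw : IsKahler w) (hM : Model (n := n) f 𝓕 χ q) (i : Fin 𝓕.N) {t : Cm p}
    (ht : t ∈ 𝓕.T) {z : Cm d} (hz : z ∈ ball (0 : Cm d) 3) (a b c : Fin p ⊕ Fin d) :
    dzT c (fun r => WW w 𝓕 q i r a b) (t, z) = dzT a (fun r => WW w 𝓕 q i r c b) (t, z) := by
  rw [dzT_eq, dzT_eq]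
  have h1 : ∀ a b, (fun y => WW w 𝓕 q i (La p d y) a b) =
      fun y => FW w (Gc 𝓕 q i) y (finSumFinEquiv a) (finSumFinEquiv b) := by
    intro a b
    funext y
    unfold WW
    rw [Matrix.submatrix_apply, (La p d).symm_apply_apply]
  rw [h1, h1]
  exact FW_closed hw (Gc_ev hM i ht hz) _ _ _

/-- the transition map on `ℂ^(p+d)` -/
def th (θ : Cm p × Cm d → Cm d) (y : Cm (p + d)) : Cm (p + d) :=
  (La p d).symm ((La p d y).1, θ (La p d y))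

theorem th_contDiffAt {θ : Cm p × Cm d → Cm d} {r : Cm p × Cm d} (hθ : AnalyticAt ℂ θ r) :
    ContDiffAt ℂ ω (th θ) ((La p d).symm r) := by
  have h0 : ContDiffAt ℂ ω θ r := hθ.contDiffAt
  have h1 : ContDiffAt ℂ ω (fun y => θ (La p d y)) ((La p d).symm r) := by
    refine ContDiffAt.comp _ (g := θ) ?_ (La p d).contDiff.contDiffAt
    rw [(La p d).apply_symm_apply]
    exact h0
  have h2 : ContDiffAt ℂ ω (fun y => (La p d y).1) ((La p d).symm r) :=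
    (contDiff_fst.comp (La p d).contDiff).contDiffAt
  exact (La p d).symm.contDiff.contDiffAt.comp _ (h2.prodMk h1)

theorem jm_th {θ : Cm p × Cm d → Cm d} {r : Cm p × Cm d} (hθ : AnalyticAt ℂ θ r) :
    (jm (th θ) ((La p d).symm r)).submatrix finSumFinEquiv finSumFinEquiv = jacT θ r := by
  ext a b
  rw [Matrix.submatrix_apply, jm_apply ((th_contDiffAt hθ).differentiableAt (by simp))]
  have h1 : HasFDerivAt (fun r : Cm p × Cm d => (La p d).symm (r.1, θ r))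
      (((La p d).symm : Cm p × Cm d →L[ℂ] Cm (p + d)).comp
        ((ContinuousLinearMap.fst ℂ (Cm p) (Cm d)).prod (fderiv ℂ θ r))) r :=
    ((La p d).symm : Cm p × Cm d →L[ℂ] Cm (p + d)).hasFDerivAt.comp r
      (hasFDerivAt_fst.prodMk hθ.differentiableAt.hasFDerivAt)
  have h2 := fderiv_La (F := fun r : Cm p × Cm d => (La p d).symm (r.1, θ r)) r
    (Pi.single (finSumFinEquiv b) 1)
  have h3 : fderiv ℂ (th θ) ((La p d).symm r) (Pi.single (finSumFinEquiv b) 1) =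
      fderiv ℂ (fun r : Cm p × Cm d => (La p d).symm (r.1, θ r)) r
        (La p d (Pi.single (finSumFinEquiv b) 1)) := h2
  rw [h3, h1.fderiv, La_single, one_smul]
  show (La p d).symm ((bv b).1, fderiv ℂ θ r (bv b)) (finSumFinEquiv a) = _
  rw [La_symm]
  rfl

theorem WW_change (hw : IsHermitian w) (hM : Model (n := n) f 𝓕 χ q) (i j : Fin 𝓕.N) {t : Cm p}
    (ht : t ∈ 𝓕.T) {z z' : Cm d} (hz : z ∈ ball (0 : Cm d) 3) (hz' : z' ∈ ball (0 : Cm d) 3)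
    {γ : Γ} {θ : Cm p × Cm d → Cm d} (hθ : AnalyticAt ℂ θ (t, z)) (hθz : θ (t, z) = z')
    (hev : ∀ᶠ r in 𝓝 (t, z), 𝓕.σ i r.1 r.2 = γ • 𝓕.σ j r.1 (θ r)) :
    WW w 𝓕 q i (t, z) =
      (jacT θ (t, z)).transpose * WW w 𝓕 q j (t, z') * (jacT θ (t, z)).map conj := by
  have h1 : Gc 𝓕 q i =ᶠ[𝓝 ((La p d).symm (t, z))] fun y => Gc 𝓕 q j (th θ y) := by
    have h2 : Tendsto (La p d) (𝓝 ((La p d).symm (t, z))) (𝓝 (t, z)) := by
      have h3 := (La p d).continuous.tendsto ((La p d).symm (t, z))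
      rwa [(La p d).apply_symm_apply] at h3
    filter_upwards [h2.eventually hev, nhds_La 𝓕 ht hz] with y hy hy'
    unfold th
    rw [Gc_symm]
    show q (La p d y).1 (𝓕.σ i (La p d y).1 (La p d y).2) =
      q (La p d y).1 (𝓕.σ j (La p d y).1 (θ (La p d y)))
    rw [hy]
    exact (((hM.eq _ hy'.1 _ _).2 ⟨γ, rfl⟩)).symm
  have h2 : th θ ((La p d).symm (t, z)) = (La p d).symm (t, z') := by
    unfold th
    rw [(La p d).apply_symm_apply, hθz]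
  unfold WW
  rw [FW_congr h1, FW_comp hw (th_contDiffAt hθ) (by
    rw [h2]
    exact (Gc_ev hM j ht hz').self_of_nhds), h2, tr_submatrix, jm_th hθ]

/-- **W** -/
theorem kfam (hw : IsKahler w) (hf : ContMDiff 𝓘(ℂ, Cm n) 𝓘(ℂ, Cm p) ω f)
    (hM : Model (n := n) f 𝓕 χ q) : KFam 𝓕 (WW w 𝓕 q) where
  smooth i _ ht _ hz a b := WW_smooth hw.toIsHermitian hM i ht hz a b
  posDef i _ ht _ hz := WW_posDef hw.toIsHermitian hf hM i ht hz
  closed i _ ht _ hz a b c := WW_closed hw hM i ht hz a b c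
  change i j _ ht _ hz _ hz' _ _ hθ hθz hev :=
    WW_change hw.toIsHermitian hM i j ht hz hz' hθ hθz hev

theorem wStmt : WStmt := by
  intro p d Z Y _ _ _ _ _ _ _ _ f w E Γ _ _ _ _ _ _ 𝓕 q χ hf hM hw
  exact ⟨WW w 𝓕 q, isPull hw.toIsHermitian hM, kfam hw hf hM⟩

end Vale.Agent.P281.H386.K
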