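import Vale.Agent.P284.H730.S5G1
import Vale.Agent.P281.H64.TK.Defs

/-!
# P281, project T-K, block KW (helper386), part 1: the pull-back of a Kähler metric of `Z` by a
holomorphic map `G : ℂᵐ → Z` defined near a point
-/

open Set Filter Metric Vale.Agent.P272.K Vale.Agent.P272.K.QN
open scoped Topology ContDiff Manifold ComplexConjugate ComplexOrder Matrix

noncomputable section

namespace Vale.Agent.P281.H386.K

variable {n m k : ℕ} {Z : Type} [TopologicalSpace Z] [ChartedSpace (Cm n) Z]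

/-- the coefficient matrix at `z` of the pull-back of `w` by `G : ℂᵐ → Z` -/
def FW (w : Chart n Z → Cm n → Matrix (Fin n) (Fin n) ℂ) (G : Cm m → Z) (z : Cm m) :
    Matrix (Fin m) (Fin m) ℂ :=
  pl (w (chartAt (Cm n) (G z))) (fun y => chartAt (Cm n) (G z) (G y)) z

theorem at_chartAt (x : Z) : At (chartAt (Cm n) x) x :=
  ⟨chart_mem_atlas _ _, mem_chart_source _ _⟩

set_option linter.unusedSectionVars false

section
variable [IsManifold 𝓘(ℂ, Cm n) ω Z] {w : Chart n Z → Cm n → Matrix (Fin n) (Fin n) ℂ}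
  {G : Cm m → Z} {z : Cm m} {e e' : Chart n Z}

theorem loc_omega (hG : ContMDiffAt 𝓘(ℂ, Cm m) 𝓘(ℂ, Cm n) ω G z) (he : At e (G z)) :
    ContDiffAt ℂ ω (fun y => e (G y)) z := by
  rw [← contMDiffAt_iff_contDiffAt]
  exact ContMDiffAt.comp z (g := e) (chart_contMDiffAt he) hG

theorem nhds_At (hG : ContMDiffAt 𝓘(ℂ, Cm m) 𝓘(ℂ, Cm n) ω G z) (he : At e (G z)) :
    ∀ᶠ y in 𝓝 z, At e (G y) := by
  filter_upwards [hG.continuousAt.eventually (e.open_source.mem_nhds he.2)] with y hy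
  exact ⟨he.1, hy⟩

theorem jm_chart (hG : ContMDiffAt 𝓘(ℂ, Cm m) 𝓘(ℂ, Cm n) ω G z) (he : At e (G z))
    (he' : At e' (G z)) :
    jm (fun y => e' (G y)) z = jacM e e' (G z) * jm (fun y => e (G y)) z := by
  have h1 : (fun y => e' (G y)) =ᶠ[𝓝 z] fun y => e' (e.symm (e (G y))) := by
    filter_upwards [nhds_At hG he] with y hy
    rw [hy.left_inv]
  rw [jm_congr h1]
  exact jm_comp (F := fun y => e (G y)) (σ := fun y => e' (e.symm y)) (z := z)
    (transition_differentiableAt he he') ((loc_omega hG he).differentiableAt (by simp))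

/-- the pull-back can be computed in any chart -/
theorem pl_indep (hw : IsHermitian w) (hG : ContMDiffAt 𝓘(ℂ, Cm m) 𝓘(ℂ, Cm n) ω G z)
    (he : At e (G z)) (he' : At e' (G z)) :
    pl (w e') (fun y => e' (G y)) z = pl (w e) (fun y => e (G y)) z := by
  unfold pl
  rw [jm_chart hG he he', hw.change e e' (G z) he he', Matrix.transpose_mul, Matrix.map_mul]
  simp only [Matrix.mul_assoc]

theorem FW_eq (hw : IsHermitian w) (hG : ContMDiffAt 𝓘(ℂ, Cm m) 𝓘(ℂ, Cm n) ω G z)
    (he : At e (G z)) : FW w G z = pl (w e) (fun y => e (G y)) z :=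
  pl_indep hw hG he (at_chartAt _)

theorem FW_ev (hw : IsHermitian w) (hG : ∀ᶠ y in 𝓝 z, ContMDiffAt 𝓘(ℂ, Cm m) 𝓘(ℂ, Cm n) ω G y)
    (he : At e (G z)) : FW w G =ᶠ[𝓝 z] pl (w e) (fun y => e (G y)) := by
  filter_upwards [hG, nhds_At hG.self_of_nhds he] with y hy hy'
  exact FW_eq hw hy hy'

theorem FW_congr {G' : Cm m → Z} (h : G =ᶠ[𝓝 z] G') : FW w G z = FW w G' z := by
  unfold FW pl
  rw [h.self_of_nhds, jm_congr (F := fun y => chartAt (Cm n) (G' z) (G y))
    (G := fun y => chartAt (Cm n) (G' z) (G' y)) (by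
      filter_upwards [h] with y hy
      rw [hy])]
  simp only [h.self_of_nhds]

theorem FW_smooth (hw : IsHermitian w)
    (hG : ∀ᶠ y in 𝓝 z, ContMDiffAt 𝓘(ℂ, Cm m) 𝓘(ℂ, Cm n) ω G y) (a b : Fin m) :
    ContDiffAt ℝ ∞ (fun y => FW w G y a b) z := by
  have he := at_chartAt (n := n) (G z)
  set e := chartAt (Cm n) (G z) with hee
  have hG' := hG.self_of_nhds
  have h1 : (fun y => FW w G y a b) =ᶠ[𝓝 z] fun y => pl (w e) (fun y => e (G y)) y a b := by
    filter_upwards [FW_ev hw hG he] with y hy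
    rw [hy]
  refine ContDiffAt.congr_of_eventuallyEq ?_ h1
  have hJ : ∀ p i, ContDiffAt ℝ ∞ (fun y => jm (fun y => e (G y)) y p i) z := fun p i =>
    ((jm_holo (loc_omega hG' he) p i).restrict_scalars ℝ).of_le le_top
  have h2 : (fun y => pl (w e) (fun y => e (G y)) y a b) = fun y => ∑ q, (∑ p,
      jm (fun y => e (G y)) y p a * w e (e (G y)) p q) *
        (starRingEnd ℂ) (jm (fun y => e (G y)) y q b) := by
    funext y
    unfold pl
    simp only [Matrix.mul_apply, Matrix.transpose_apply, Matrix.map_apply]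
  rw [h2]
  have h3 : ∀ p q, ContDiffAt ℝ ∞ (fun y => w e (e (G y)) p q) z := fun p q =>
    (hw.smooth e (G z) he p q).comp z (((loc_omega hG' he).restrict_scalars ℝ).of_le le_top)
  refine ContDiffAt.sum fun q _ => ContDiffAt.mul (ContDiffAt.sum fun p _ =>
    (hJ p a).mul (h3 p q)) ?_
  exact Complex.conjCLE.contDiff.contDiffAt.comp z (hJ q b)

theorem FW_posDef (hw : IsHermitian w) (hG : ContMDiffAt 𝓘(ℂ, Cm m) 𝓘(ℂ, Cm n) ω G z)
    (he : At e (G z)) (hi : Function.Injective (fderiv ℂ (fun y => e (G y)) z)) :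
    (FW w G z).PosDef := by
  rw [FW_eq hw hG he]
  refine Vale.Agent.P284.H730.G.pl_posDef (hw.posDef e _ he) fun v v' hv => hi ?_
  have hd := (loc_omega hG he).differentiableAt (by simp)
  ext p
  have h7 := congrFun hv p
  simp only [Matrix.mulVec, dotProduct] at h7
  rw [← jm_mulVec hd v p, ← jm_mulVec hd v' p] at h7
  exact h7

theorem FW_closed (hw : IsKahler w)
    (hG : ∀ᶠ y in 𝓝 z, ContMDiffAt 𝓘(ℂ, Cm m) 𝓘(ℂ, Cm n) ω G y) (a b c : Fin m) :
    dz c (fun y => FW w G y a b) z = dz a (fun y => FW w G y c b) z := by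
  have he := at_chartAt (n := n) (G z)
  set e := chartAt (Cm n) (G z) with hee
  have hG' := hG.self_of_nhds
  have h1 : ∀ a b, (fun y => FW w G y a b) =ᶠ[𝓝 z] fun y => pl (w e) (fun y => e (G y)) y a b := by
    intro a b
    filter_upwards [FW_ev hw.toIsHermitian hG he] with y hy
    rw [hy]
  rw [C2.dz_congr c (h1 a b), C2.dz_congr a (h1 c b)]
  refine Vale.Agent.P284.H730.G.pl_closed ?_ (loc_omega hG' he) ?_ a b c
  · intro i j
    exact (hw.smooth _ _ he i j).of_le (by exact_mod_cast le_top)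
  · exact fun i j k => hw.closed _ _ he i j k

/-- functoriality -/
theorem FW_comp (hw : IsHermitian w) {θ : Cm k → Cm m} {y : Cm k} (hθ : ContDiffAt ℂ ω θ y)
    (hG : ContMDiffAt 𝓘(ℂ, Cm m) 𝓘(ℂ, Cm n) ω G (θ y)) :
    FW w (fun u => G (θ u)) y = (jm θ y)ᵀ * FW w G (θ y) * (jm θ y).map conj := by
  have he := at_chartAt (n := n) (G (θ y))
  set e := chartAt (Cm n) (G (θ y)) with hee
  have h1 : ContMDiffAt 𝓘(ℂ, Cm k) 𝓘(ℂ, Cm n) ω (fun u => G (θ u)) y :=
    ContMDiffAt.comp y (g := G) hG hθ.contMDiffAt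
  rw [FW_eq hw h1 he, FW_eq hw hG he]
  unfold pl
  rw [show (fun u => e (G (θ u))) = fun u => (fun v => e (G v)) (θ u) from rfl,
    jm_comp (F := θ) (σ := fun v => e (G v)) (z := y)
      ((loc_omega hG he).differentiableAt (by simp)) (hθ.differentiableAt (by simp)),
    Matrix.transpose_mul, Matrix.map_mul]
  simp only [Matrix.mul_assoc]

end

end Vale.Agent.P281.H386.K
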