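import Vale.Agent.P281.H386.K.W

/-!
# P281, project T-K (helper386): the metric of the fibres, for block KK
-/

open Set Filter Metric Vale.Agent.P272.K Vale.Agent.P272.K.QN Vale.Agent.P281.H64.TK
open scoped Topology ContDiff Manifold ComplexConjugate ComplexOrder Matrix

set_option linter.unusedSectionVars false

noncomputable section

namespace Vale.Agent.P281.H386.K

variable {n p p' d : ℕ} {Z Y Y' : Type} [TopologicalSpace Z] [ChartedSpace (Cm n) Z]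
  [IsManifold 𝓘(ℂ, Cm n) ω Z] [TopologicalSpace Y] [ChartedSpace (Cm p) Y]
  [IsManifold 𝓘(ℂ, Cm p) ω Y]
  [TopologicalSpace Y'] [ChartedSpace (Cm p') Y'] [IsManifold 𝓘(ℂ, Cm p') ω Y'] {f : Z → Y} {f' : Z → Y'}
  {w : Chart n Z → Cm n → Matrix (Fin n) (Fin n) ℂ}
  {E Γ : Type} [TopologicalSpace E] [Group Γ] [MulAction Γ E] {𝓕 : Fam p d E Γ}
  {q : Cm p → E → Z} {χ : OpenPartialHomeomorph Y (Cm p)}
  {E' Γ' : Type} [TopologicalSpace E'] [Group Γ'] [MulAction Γ' E'] {𝓕' : Fam p' d E' Γ'}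
  {q' : Cm p' → E' → Z} {χ' : OpenPartialHomeomorph Y' (Cm p')}
  {W : Fin 𝓕.N → Cm p × Cm d → Matrix (Fin p ⊕ Fin d) (Fin p ⊕ Fin d) ℂ}
  {W' : Fin 𝓕'.N → Cm p' × Cm d → Matrix (Fin p' ⊕ Fin d) (Fin p' ⊕ Fin d) ℂ}

theorem fib_hol (hM : Model (n := n) f 𝓕 χ q) (i : Fin 𝓕.N) {t : Cm p} (ht : t ∈ 𝓕.T) {z : Cm d}
    (hz : z ∈ ball (0 : Cm d) 3) :
    ContMDiffAt 𝓘(ℂ, Cm d) 𝓘(ℂ, Cm n) ω (fun u => q t (𝓕.σ i t u)) z := by
  have h1 : ContMDiffAt 𝓘(ℂ, Cm d) 𝓘(ℂ, Cm p × Cm d) ω (fun u : Cm d => ((t, u) : Cm p × Cm d)) z :=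
    (contDiff_const.prodMk contDiff_id).contMDiff.contMDiffAt
  exact ContMDiffAt.comp z (g := Qc 𝓕 q i) (Qc_hol hM i ht hz) h1

theorem jm_fib (hM : Model (n := n) f 𝓕 χ q) (i : Fin 𝓕.N) {t : Cm p} (ht : t ∈ 𝓕.T) {z : Cm d}
    (hz : z ∈ ball (0 : Cm d) 3) {e : Chart n Z} (he : At e (q t (𝓕.σ i t z))) :
    jm (fun u => e (q t (𝓕.σ i t u))) z = (𝓕.jacE q e i (t, z)).submatrix id Sum.inr := by
  have h1 := (loc_omega (fib_hol hM i ht hz) he).differentiableAt (by simp)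
  have hA : DifferentiableAt ℂ (fun r => e (Qc 𝓕 q i r)) (t, z) := by
    have h4 : ContMDiffAt 𝓘(ℂ, Cm p × Cm d) 𝓘(ℂ, Cm n) ω (fun r => e (Qc 𝓕 q i r)) (t, z) :=
      ContMDiffAt.comp (t, z) (g := e) (chart_contMDiffAt he) (Qc_hol hM i ht hz)
    exact h4.contDiffAt.differentiableAt (by simp)
  have h2 : HasFDerivAt (fun u : Cm d => ((t, u) : Cm p × Cm d))
      ((0 : Cm d →L[ℂ] Cm p).prod (ContinuousLinearMap.id ℂ (Cm d))) z :=
    (hasFDerivAt_const t z).prodMk (hasFDerivAt_id z)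
  have h3 := HasFDerivAt.comp z (g := fun r => e (Qc 𝓕 q i r)) hA.hasFDerivAt h2
  ext a k
  rw [Matrix.submatrix_apply, jm_apply h1, id]
  have h4 : fderiv ℂ (fun u => e (q t (𝓕.σ i t u))) z =
      (fderiv ℂ (fun r => e (Qc 𝓕 q i r)) (t, z)).comp
        ((0 : Cm d →L[ℂ] Cm p).prod (ContinuousLinearMap.id ℂ (Cm d))) := h3.fderiv
  rw [h4]
  rfl

/-- the metric of the fibre is the pull-back of `w` by `u ↦ q t (σ i t u)` -/
theorem fibW_eq (hw : IsHermitian w) (hM : Model (n := n) f 𝓕 χ q) (hW : IsPull w 𝓕 q W)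
    (i : Fin 𝓕.N) {t : Cm p} (ht : t ∈ 𝓕.T) {z : Cm d} (hz : z ∈ ball (0 : Cm d) 3) :
    fibW W t i z = FW w (fun u => q t (𝓕.σ i t u)) z := by
  have he : At (chartAt (Cm n) (q t (𝓕.σ i t z))) (q t (𝓕.σ i t z)) := at_chartAt _
  have h1 : fibW W t i z = (W i (t, z)).submatrix Sum.inr Sum.inr := rfl
  rw [h1, hW i t ht z hz _ he, FW_eq hw (fib_hol hM i ht hz) he]
  unfold pl
  rw [jm_fib hM i ht hz he]
  ext a b
  simp only [Matrix.submatrix_apply, Matrix.mul_apply, Matrix.transpose_apply, Matrix.map_apply,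
    id]

theorem jm_eq_jac {θ : Cm d → Cm d} {z : Cm d} (hθ : AnalyticAt ℂ θ z) : jm θ z = jac θ z := by
  ext a b
  rw [jm_apply hθ.differentiableAt]
  rfl

/-- **the same metric**: two models at the same point of `Z`, `q' ∘ τ = q` on the fibre -/
theorem same_metric (hw : IsHermitian w) (hM : Model (n := n) f 𝓕 χ q)
    (hM' : Model (n := n) f' 𝓕' χ' q') (hW : IsPull w 𝓕 q W) (hW' : IsPull w 𝓕' q' W')
    {t : Cm p} (ht : t ∈ 𝓕.T) {t' : Cm p'} (ht' : t' ∈ 𝓕'.T) {τ : E → E'}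
    (hτ : ∀ e, q' t' (τ e) = q t e) (i : Fin 𝓕.N) (j : Fin 𝓕'.N) {z z' : Cm d}
    (hz : z ∈ ball (0 : Cm d) 3) (hz' : z' ∈ ball (0 : Cm d) 3) {γ : Γ'} {θ : Cm d → Cm d}
    (hθ : AnalyticAt ℂ θ z) (hθz : θ z = z')
    (hev : ∀ᶠ u in 𝓝 z, τ (𝓕.σ i t u) = γ • 𝓕'.σ j t' (θ u)) :
    fibW W t i z = (jac θ z).transpose * fibW W' t' j z' * (jac θ z).map conj := by
  have h1 : (fun u => q t (𝓕.σ i t u)) =ᶠ[𝓝 z] fun u => q' t' (𝓕'.σ j t' (θ u)) := by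
    filter_upwards [hev] with u hu
    rw [← hτ, hu]
    exact ((hM'.eq t' ht' _ _).2 ⟨γ, rfl⟩).symm
  rw [fibW_eq hw hM hW i ht hz, fibW_eq hw hM' hW' j ht' hz', FW_congr h1,
    FW_comp (G := fun u => q' t' (𝓕'.σ j t' u)) hw hθ.contDiffAt (by
      rw [hθz]
      exact fib_hol hM' j ht' hz'), jm_eq_jac hθ, hθz]

end Vale.Agent.P281.H386.K
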