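import Vale.Agent.P281.H386.K.FW

/-!
# P281, project T-K, block KW (helper386), part 2: `ℂ^(p+d) = ℂ^p × ℂ^d`
-/

open Set Filter Metric Vale.Agent.P272.K Vale.Agent.P272.K.QN Vale.Agent.P281.H64.TK
open scoped Topology ContDiff Manifold ComplexConjugate ComplexOrder Matrix

noncomputable section

namespace Vale.Agent.P281.H386.K

variable {p d : ℕ}

/-- `ℂ^(p+d) = ℂ^p × ℂ^d` -/
def La (p d : ℕ) : Cm (p + d) ≃L[ℂ] Cm p × Cm d :=
  ((LinearEquiv.funCongrLeft ℂ ℂ (finSumFinEquiv (m := p) (n := d))).trans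
    (LinearEquiv.sumArrowLequivProdArrow (Fin p) (Fin d) ℂ ℂ)).toContinuousLinearEquiv

theorem La_fst (y : Cm (p + d)) (k : Fin p) : (La p d y).1 k = y (finSumFinEquiv (Sum.inl k)) := rfl

theorem La_snd (y : Cm (p + d)) (l : Fin d) : (La p d y).2 l = y (finSumFinEquiv (Sum.inr l)) := rfl

theorem La_symm (r : Cm p × Cm d) (a : Fin p ⊕ Fin d) :
    (La p d).symm r (finSumFinEquiv a) = Sum.elim r.1 r.2 a := by
  have h : La p d ((La p d).symm r) = r := (La p d).apply_symm_apply r
  cases a with
  | inl k => exact congrFun (congrArg Prod.fst h) k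
  | inr l => exact congrFun (congrArg Prod.snd h) l

theorem La_single (a : Fin p ⊕ Fin d) (c : ℂ) :
    La p d (Pi.single (finSumFinEquiv a) c) = c • bv a := by
  cases a with
  | inl k =>
    refine Prod.ext ?_ ?_
    · funext j
      rw [La_fst]
      by_cases h : j = k
      · subst h; simp [bv]
      · have h' : finSumFinEquiv (Sum.inl j) ≠ (finSumFinEquiv (Sum.inl k) : Fin (p + d)) := by
          intro h2; exact h (Sum.inl.inj (finSumFinEquiv.injective h2))
        rw [Pi.single_eq_of_ne h']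
        simp [bv, h]
    · funext j
      rw [La_snd]
      have h' : finSumFinEquiv (Sum.inr j) ≠ (finSumFinEquiv (Sum.inl k) : Fin (p + d)) := by
        intro h2; exact Sum.inr_ne_inl (finSumFinEquiv.injective h2)
      rw [Pi.single_eq_of_ne h']
      simp [bv]
  | inr l =>
    refine Prod.ext ?_ ?_
    · funext j
      rw [La_fst]
      have h' : finSumFinEquiv (Sum.inl j) ≠ (finSumFinEquiv (Sum.inr l) : Fin (p + d)) := by
        intro h2; exact Sum.inl_ne_inr (finSumFinEquiv.injective h2)
      rw [Pi.single_eq_of_ne h']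
      simp [bv]
    · funext j
      rw [La_snd]
      by_cases h : j = l
      · subst h; simp [bv]
      · have h' : finSumFinEquiv (Sum.inr j) ≠ (finSumFinEquiv (Sum.inr l) : Fin (p + d)) := by
          intro h2; exact h (Sum.inr.inj (finSumFinEquiv.injective h2))
        rw [Pi.single_eq_of_ne h']
        simp [bv, h]

/-- the real version -/
def LaR (p d : ℕ) : Cm (p + d) ≃L[ℝ] Cm p × Cm d where
  toLinearEquiv := (La p d).toLinearEquiv.restrictScalars ℝ
  continuous_toFun := (La p d).continuous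
  continuous_invFun := (La p d).symm.continuous

theorem LaR_apply (y : Cm (p + d)) : LaR p d y = La p d y := rfl

theorem dzT_eq (a : Fin p ⊕ Fin d) (f : Cm p × Cm d → ℂ) (r : Cm p × Cm d) :
    dzT a f r = dz (finSumFinEquiv a) (fun y => f (La p d y)) ((La p d).symm r) := by
  have h : ∀ v, fderiv ℝ (fun y => f (La p d y)) ((La p d).symm r) v =
      fderiv ℝ f r (La p d v) := by
    intro v
    have h1 := (LaR p d).comp_right_fderiv (f := f) (x := (La p d).symm r)
    have h2 : fderiv ℝ (fun y => f (La p d y)) ((La p d).symm r) =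
        (fderiv ℝ f (La p d ((La p d).symm r))).comp (LaR p d : Cm (p + d) →L[ℝ] Cm p × Cm d) := h1
    rw [h2, (La p d).apply_symm_apply]
    rfl
  unfold dzT dz
  rw [h, h, La_single, La_single, one_smul]

theorem fderiv_La {F : Cm p × Cm d → Cm (p + d)} (r : Cm p × Cm d) (v : Cm (p + d)) :
    fderiv ℂ (fun y => F (La p d y)) ((La p d).symm r) v = fderiv ℂ F r (La p d v) := by
  have h1 := (La p d).comp_right_fderiv (f := F) (x := (La p d).symm r)
  have h2 : fderiv ℂ (fun y => F (La p d y)) ((La p d).symm r) =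
      (fderiv ℂ F (La p d ((La p d).symm r))).comp (La p d : Cm (p + d) →L[ℂ] Cm p × Cm d) := h1
  rw [h2, (La p d).apply_symm_apply]
  rfl

theorem pl_submatrix {n m : ℕ} {β : Type} (J : Matrix (Fin n) (Fin m) ℂ)
    (M : Matrix (Fin n) (Fin n) ℂ) (φ : β → Fin m) :
    (Jᵀ * M * J.map conj).submatrix φ φ =
      (J.submatrix id φ)ᵀ * M * (J.submatrix id φ).map conj := by
  ext a b
  simp only [Matrix.submatrix_apply, Matrix.mul_apply, Matrix.transpose_apply, Matrix.map_apply,
    id]

theorem tr_submatrix {m : ℕ} {β : Type} [Fintype β] (J : Matrix (Fin m) (Fin m) ℂ)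
    (M : Matrix (Fin m) (Fin m) ℂ) (φ : β ≃ Fin m) :
    (Jᵀ * M * J.map conj).submatrix φ φ =
      (J.submatrix φ φ)ᵀ * (M.submatrix φ φ) * (J.submatrix φ φ).map conj := by
  ext a b
  simp only [Matrix.submatrix_apply, Matrix.mul_apply, Matrix.transpose_apply, Matrix.map_apply]
  rw [← Equiv.sum_comp φ]
  refine Finset.sum_congr rfl fun x _ => ?_
  rw [← Equiv.sum_comp φ]

end Vale.Agent.P281.H386.K
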